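import Vale.Agent.P139Z.ODefs

/-! The free solution with data `(1, 0)` loses modulus quadratically. -/

open Set Filter Topology MeasureTheory Complex
open scoped NNReal ENNReal ComplexConjugate ContDiff

namespace Vale.Agent.P139Z.ExtP

theorem two_le : (2 : WithTop ℕ∞) ≤ ((⊤ : ℕ∞) : WithTop ℕ∞) := by
  rw [show (2 : WithTop ℕ∞) = ((2 : ℕ∞) : WithTop ℕ∞) from rfl]
  exact WithTop.coe_le_coe.2 le_top

theorem hasDerivAt_two {W : ℝ → ℂ} {ρ : ℝ} (h : ContDiffAt ℝ 2 W ρ) :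
    HasDerivAt W (deriv W ρ) ρ ∧ HasDerivAt (deriv W) (iteratedDeriv 2 W ρ) ρ := by
  refine ⟨(h.differentiableAt (by norm_num)).hasDerivAt, ?_⟩
  have h1 : ContDiffAt ℝ 1 (deriv W) ρ := h.derivWithin (by norm_num)
  rw [iteratedDeriv_succ, iteratedDeriv_one]
  exact (h1.differentiableAt (by norm_num)).hasDerivAt

theorem drop {β T : ℝ} (hβ : InB β) (hT : T ∈ Icc (10.8 : ℝ) 10.9) {W : ℝ → ℂ}
    (hW : ContDiffOn ℝ ∞ W (Ioi 0)) (e : ∀ ρ : ℝ, 0 < ρ → Mop (-I * β) 6 W ρ = 0) (h₀ : W T = 1)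
    (h₁ : deriv W T = 0) {ρ : ℝ} (hρ : ρ ∈ Icc T 11.2) :
    9 / 10 ≤ ‖W ρ‖ ∧ ‖W ρ‖ ≤ 1 - (ρ - T) ^ 2 / 1000 := by
  obtain ⟨hT1, hT2⟩ := hT
  obtain ⟨hβ1, hβ2⟩ := hβ
  have hd : ∀ x ∈ Icc T 11.2, HasDerivAt W (deriv W x) x ∧
      HasDerivAt (deriv W) (iteratedDeriv 2 W x) x := fun x hx =>
    hasDerivAt_two ((hW.contDiffAt (Ioi_mem_nhds (by linarith [hx.1]))).of_le two_le)
  have heq : ∀ x ∈ Icc T 11.2, 4 * (x : ℂ) * iteratedDeriv 2 W x =
      -((24 + I * x) * deriv W x) - β * W x := by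
    intro x hx
    have h := e x (by linarith [hx.1])
    unfold Mop at h
    push_cast at h
    linear_combination h + β * W x * I_mul_I
  have hn : ∀ x ∈ Icc T 11.2, ‖(24 + I * x : ℂ)‖ ≤ 27 := by
    intro x hx
    rw [← sq_le_sq₀ (norm_nonneg _) (by norm_num), Complex.sq_norm, Complex.normSq_apply]
    simp
    nlinarith [hx.1, hx.2]
  have h4 : ∀ x ∈ Icc T 11.2, ‖4 * (x : ℂ)‖ = 4 * x := by
    intro x hx
    rw [norm_mul, Complex.norm_real, Real.norm_of_nonneg (by linarith [hx.1])]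
    simp
  have hβn : ‖(β : ℂ)‖ = β := by rw [Complex.norm_real, Real.norm_of_nonneg (by linarith)]
  have hc0 : ContinuousOn W (Icc T 11.2) := fun x hx => (hd x hx).1.continuousAt.continuousWithinAt
  have hc1 : ContinuousOn (deriv W) (Icc T 11.2) := fun x hx =>
    (hd x hx).2.continuousAt.continuousWithinAt
  have hne : (Icc T 11.2).Nonempty := ⟨ρ, hρ⟩
  obtain ⟨x1, hx1, hM1⟩ := isCompact_Icc.exists_isMaxOn hne hc1.norm
  set M := ‖deriv W x1‖ with hM
  have hM0 : 0 ≤ M := norm_nonneg _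
  have hW1 : ∀ x ∈ Icc T 11.2, ‖W x - 1‖ ≤ M * 0.4 := by
    intro x hx
    have h := norm_image_sub_le_of_norm_deriv_le_segment'
      (fun y hy => (hd y hy).1.hasDerivWithinAt) (fun y hy => hM1 (Ico_subset_Icc_self hy)) x hx
    rw [h₀] at h
    exact h.trans (mul_le_mul_of_nonneg_left (by linarith [hx.2]) hM0)
  have hW2 : ∀ x ∈ Icc T 11.2, ‖iteratedDeriv 2 W x‖ ≤ (27 * M + 0.34 * (1 + M * 0.4)) / 43 := by
    intro x hx
    have h := congrArg norm (heq x hx)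
    rw [norm_mul, h4 x hx] at h
    have h2 := norm_sub_le (-((24 + I * x) * deriv W x)) (β * W x)
    rw [norm_neg, norm_mul, norm_mul, hβn] at h2
    have h3 : ‖deriv W x‖ ≤ M := hM1 hx
    have h5 : ‖W x‖ ≤ 1 + M * 0.4 := by
      have := norm_add_le (1 : ℂ) (W x - 1)
      rw [add_sub_cancel, norm_one] at this
      linarith [hW1 x hx]
    have h6 := mul_le_mul (hn x hx) h3 (norm_nonneg _) (by norm_num)
    have h7 := mul_le_mul (by linarith : β ≤ 0.34) h5 (norm_nonneg _) (by norm_num)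
    have h8 := norm_nonneg (iteratedDeriv 2 W x)
    rw [le_div_iff₀ (by norm_num)]
    nlinarith [hx.1]
  have hM2 : M ≤ 0.0043 := by
    have h := norm_image_sub_le_of_norm_deriv_le_segment'
      (fun y hy => (hd y hy).2.hasDerivWithinAt) (fun y hy => hW2 y (Ico_subset_Icc_self hy)) x1 hx1
    rw [h₁, sub_zero, ← hM] at h
    have h2 := h.trans (mul_le_mul_of_nonneg_left (by linarith [hx1.2] : x1 - T ≤ 0.4)
      (by positivity))
    linarith
  have hW3 : ∀ x ∈ Icc T 11.2, ‖iteratedDeriv 2 W x + 0.0076‖ ≤ 0.003 := by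
    intro x hx
    have h : 4 * (x : ℂ) * (iteratedDeriv 2 W x + 0.0076) =
        -((24 + I * x) * deriv W x) - β * (W x - 1) + ((0.0304 * x - β : ℝ) : ℂ) := by
      rw [mul_add, heq x hx]
      push_cast
      ring
    have h1 := congrArg norm h
    rw [norm_mul, h4 x hx] at h1
    have h2 := norm_sub_le (-((24 + I * x) * deriv W x)) (β * (W x - 1))
    rw [norm_neg, norm_mul, norm_mul, hβn] at h2
    have h2' := norm_add_le (-((24 + I * x) * deriv W x) - β * (W x - 1))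
      ((0.0304 * x - β : ℝ) : ℂ)
    have h3 : ‖deriv W x‖ ≤ M := hM1 hx
    have h6 := mul_le_mul (hn x hx) h3 (norm_nonneg _) (by norm_num)
    have h7 := mul_le_mul (by linarith : β ≤ 0.34) (hW1 x hx) (norm_nonneg _) (by norm_num)
    have h9 : ‖((0.0304 * x - β : ℝ) : ℂ)‖ ≤ 0.007 := by
      rw [Complex.norm_real, Real.norm_eq_abs, abs_le]
      constructor <;> linarith [hx.1, hx.2]
    have h8 := norm_nonneg (iteratedDeriv 2 W x + 0.0076)
    nlinarith [hx.1]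
  have hlin : ∀ x : ℝ, HasDerivAt (fun y : ℝ => ((y - T : ℝ) : ℂ)) 1 x := fun x =>
    ((hasDerivAt_id x).sub_const T).ofReal_comp
  have hD1 : ∀ x ∈ Icc T 11.2, ‖deriv W x + 0.0076 * ((x - T : ℝ) : ℂ)‖ ≤ 0.003 * (x - T) := by
    intro x hx
    have h := norm_image_sub_le_of_norm_deriv_le_segment'
      (f := fun y => deriv W y + 0.0076 * ((y - T : ℝ) : ℂ))
      (fun y hy => ((hd y hy).2.add ((hlin y).const_mul 0.0076)).hasDerivWithinAt)
      (fun y hy => by rw [mul_one]; exact hW3 y (Ico_subset_Icc_self hy)) x hx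
    simpa [h₁] using h
  have hD0 : ‖W ρ - 1 + 0.0038 * ((ρ - T : ℝ) : ℂ) ^ 2‖ ≤ 0.0015 * (ρ - T) ^ 2 := by
    have hf : ∀ x ∈ Icc T 11.2, HasDerivAt (fun y => W y - 1 + 0.0038 * ((y - T : ℝ) : ℂ) ^ 2)
        (deriv W x + 0.0076 * ((x - T : ℝ) : ℂ)) x := by
      intro x hx
      refine (((hd x hx).1.sub_const 1).add (((hlin x).pow 2).const_mul 0.0038)).congr_deriv ?_
      simp
      ring
    refine image_norm_le_of_norm_deriv_right_le_deriv_boundary
      (fun x hx => (hf x hx).continuousAt.continuousWithinAt)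
      (fun x hx => (hf x (Ico_subset_Icc_self hx)).hasDerivWithinAt)
      (B := fun y => 0.0015 * (y - T) ^ 2) (B' := fun y => 0.003 * (y - T)) (by simp [h₀])
      (fun x => ?_) (fun x hx => hD1 x (Ico_subset_Icc_self hx)) hρ
    refine ((((hasDerivAt_id x).sub_const T).pow 2).const_mul 0.0015).congr_deriv ?_
    simp
    ring
  constructor
  · have h := norm_sub_le (W ρ) (W ρ - 1)
    rw [sub_sub_cancel, norm_one] at h
    linarith [hW1 ρ hρ]
  · have h := norm_add_le (W ρ - 1 + 0.0038 * ((ρ - T : ℝ) : ℂ) ^ 2)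
      ((1 - 0.0038 * (ρ - T) ^ 2 : ℝ) : ℂ)
    have e1 : W ρ - 1 + 0.0038 * ((ρ - T : ℝ) : ℂ) ^ 2 + ((1 - 0.0038 * (ρ - T) ^ 2 : ℝ) : ℂ) =
        W ρ := by
      push_cast
      ring
    have h2 : (ρ - T) ^ 2 ≤ 1 := by nlinarith [hρ.1, hρ.2]
    rw [e1, Complex.norm_real, Real.norm_of_nonneg (by linarith)] at h
    nlinarith [sq_nonneg (ρ - T)]

end Vale.Agent.P139Z.ExtP
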