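import Vale.Agent.P139Z.OBase
import Vale.Agent.P139Z.OCalc
import Vale.Agent.P139Z.ExtP.Drop

/-! Stability estimates for one function, and the truncated power nonlinearity. -/

open Set Filter Topology MeasureTheory Complex
open scoped NNReal ENNReal ComplexConjugate ContDiff

namespace Vale.Agent.P139Z.ExtP

theorem Mop_shift (A A' : ℂ) (B : ℕ) (F : ℝ → ℂ) (ρ : ℝ) :
    Mop A' B F ρ = Mop A B F ρ + I * (A' - A) * F ρ := by
  unfold Mop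
  ring

theorem deriv_sub_two {F H : ℝ → ℂ} {ρ : ℝ} (hF : ContDiffAt ℝ 2 F ρ) (hH : ContDiffAt ℝ 2 H ρ) :
    deriv (fun x => F x - H x) ρ = deriv F ρ - deriv H ρ :=
  ((hasDerivAt_two hF).1.sub (hasDerivAt_two hH).1).deriv

/-- Gronwall estimate for one function with a constant remainder. -/
theorem stab1 {a : ℝ} (ha : 0 < a) (b : ℝ) {K : ℝ} (hK : 6 ≤ K) :
    ∃ C : ℝ, 0 < C ∧ ∀ (A : ℂ) (F : ℝ → ℂ) (σ : ℝ), ‖A‖ ≤ K →
      (∀ ρ ∈ Icc a b, ContDiffAt ℝ 2 F ρ) → 0 ≤ σ →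
      (∀ ρ ∈ Icc a b, ‖Mop A 6 F ρ‖ ≤ K * ‖F ρ‖ + σ) →
      ∀ ρ₀ ∈ Icc a b, ∀ ρ ∈ Icc a b,
        ‖F ρ‖ + ‖deriv F ρ‖ ≤ C * (‖F ρ₀‖ + ‖deriv F ρ₀‖ + σ) := by
  obtain ⟨C, hC, h⟩ := stab2 ha b K
  refine ⟨C * (1 + |b - a|), by positivity, fun A F σ hA hF hσ e ρ₀ h₀ ρ hρ => ?_⟩
  have h1 := h A A 6 6 F (fun _ => 0) (fun _ => σ) hA hA (by simpa using hK) (by simpa using hK)
    hF (fun _ _ => contDiffAt_const) continuousOn_const (fun _ _ => hσ)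
    (fun x hx => by simpa [Mop] using e x hx) ρ₀ h₀ ρ hρ
  simp only [norm_zero, deriv_const, add_zero, intervalIntegral.integral_const,
    smul_eq_mul] at h1
  refine h1.trans ?_
  rw [mul_assoc]
  refine mul_le_mul_of_nonneg_left ?_ hC.le
  have h2 := le_abs_self (b - a)
  have h3 := abs_nonneg (b - a)
  have h4 := norm_nonneg (F ρ₀)
  have h5 := norm_nonneg (deriv F ρ₀)
  nlinarith [mul_nonneg h3 h4, mul_nonneg h3 h5, mul_le_mul_of_nonneg_right h2 hσ]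

theorem cont_of_bound {X Y Z : Type*} [TopologicalSpace X] [SeminormedAddCommGroup Y]
    [SeminormedAddCommGroup Z] {s : Set X} {f : X → Y} {g : X → Z} {C : ℝ}
    (hg : ContinuousOn g s) (h : ∀ p ∈ s, ∀ q ∈ s, ‖f p - f q‖ ≤ C * ‖g p - g q‖) :
    ContinuousOn f s := by
  intro q hq
  have h1 : Tendsto (fun p => C * ‖g p - g q‖) (𝓝[s] q) (𝓝 0) := by
    simpa using (tendsto_iff_norm_sub_tendsto_zero.1 (hg q hq)).const_mul C
  exact tendsto_iff_norm_sub_tendsto_zero.2 (squeeze_zero' (Eventually.of_forall fun _ =>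
    norm_nonneg _) (eventually_nhdsWithin_of_forall fun p hp => h p hp q hq) h1)

/-- Continuous dependence for the equation with a Lipschitz nonlinearity. -/
theorem semi_cont {a b ρ₀ : ℝ} (ha : 0 < a) (hρ₀ : ρ₀ ∈ Icc a b) {N : ℂ → ℂ} {L : ℝ≥0}
    (hN : LipschitzWith L N) {X : Type*} [TopologicalSpace X] {s : Set X} {A : X → ℂ}
    (hA : ContinuousOn A s) (hA' : ∀ p ∈ s, ‖A p‖ ≤ 6) {F : X → ℝ → ℂ}
    (hF : ∀ p ∈ s, ContDiffOn ℝ 2 (F p) (Ioi 0))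
    (e : ∀ p ∈ s, ∀ ρ : ℝ, 0 < ρ → Mop (A p) 6 (F p) ρ = N (F p ρ))
    (hb : ∀ p ∈ s, ∀ ρ ∈ Icc a b, ‖F p ρ‖ ≤ 1)
    (h₀ : ContinuousOn (fun p => (F p ρ₀, deriv (F p) ρ₀)) s) :
    ContinuousOn (fun p => (F p a, deriv (F p) a)) s := by
  obtain ⟨C, hC, h⟩ := stab1 ha b (le_max_right (L : ℝ) 6)
  refine cont_of_bound (C := 3 * C) (h₀.prodMk hA) fun p hp q hq => ?_
  have hd : ∀ r ∈ s, ∀ ρ ∈ Icc a b, ContDiffAt ℝ 2 (F r) ρ := fun r hr ρ hρ =>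
    (hF r hr).contDiffAt (Ioi_mem_nhds (ha.trans_le hρ.1))
  have ha' : a ∈ Icc a b := ⟨le_rfl, hρ₀.1.trans hρ₀.2⟩
  have h1 := h (A p) (fun x => F p x - F q x) ‖A p - A q‖ ((hA' p hp).trans (le_max_right _ _))
    (fun ρ hρ => (hd p hp ρ hρ).sub (hd q hq ρ hρ)) (norm_nonneg _) (fun ρ hρ => ?_) ρ₀ hρ₀ a ha'
  · rw [deriv_sub_two (hd p hp a ha') (hd q hq a ha'),
      deriv_sub_two (hd p hp ρ₀ hρ₀) (hd q hq ρ₀ hρ₀)] at h1
    set g : (ℂ × ℂ) × ℂ := ((F p ρ₀, deriv (F p) ρ₀), A p) - ((F q ρ₀, deriv (F q) ρ₀), A q)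
      with hg
    have g1 : ‖F p ρ₀ - F q ρ₀‖ ≤ ‖g‖ := (norm_fst_le g.1).trans (norm_fst_le g)
    have g2 : ‖deriv (F p) ρ₀ - deriv (F q) ρ₀‖ ≤ ‖g‖ := (norm_snd_le g.1).trans (norm_fst_le g)
    have g3 : ‖A p - A q‖ ≤ ‖g‖ := norm_snd_le g
    have h2 := h1.trans (mul_le_mul_of_nonneg_left (add_le_add (add_le_add g1 g2) g3) hC.le)
    rw [Prod.mk_sub_mk, Prod.norm_mk, max_le_iff]
    constructor
    · linarith [norm_nonneg (deriv (F p) a - deriv (F q) a)]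
    · linarith [norm_nonneg (F p a - F q a)]
  · have hρ' := ha.trans_le hρ.1
    rw [Mop_sub _ _ (hd p hp ρ hρ) (hd q hq ρ hρ), Mop_shift (A q) (A p) 6 (F q), e p hp ρ hρ',
      e q hq ρ hρ', ← sub_sub]
    refine (norm_sub_le _ _).trans (add_le_add ?_ ?_)
    · rw [← dist_eq_norm, ← dist_eq_norm]
      exact (hN.dist_le_mul _ _).trans
        (mul_le_mul_of_nonneg_right (le_max_left _ _) dist_nonneg)
    · rw [norm_mul, norm_mul, norm_I, one_mul]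
      exact mul_le_of_le_one_right (norm_nonneg _) (hb q hq ρ hρ)

/-- The power nonlinearity truncated at the modulus `θ`. -/
noncomputable def Nt (θ : ℝ) (m : ℕ) (z : ℂ) : ℂ := ((min ‖z‖ θ ^ (2 * m) : ℝ) : ℂ) * z

theorem Nt_eq {θ : ℝ} (m : ℕ) {z : ℂ} (h : ‖z‖ ≤ θ) : Nt θ m z = (‖z‖ : ℂ) ^ (2 * m) * z := by
  unfold Nt
  rw [min_eq_left h]
  push_cast
  rfl

theorem norm_Nt {θ : ℝ} (h0 : 0 ≤ θ) (m : ℕ) (z : ℂ) : ‖Nt θ m z‖ ≤ θ ^ (2 * m) * ‖z‖ := by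
  unfold Nt
  have h1 : 0 ≤ min ‖z‖ θ := le_min (norm_nonneg _) h0
  rw [norm_mul, Complex.norm_real, Real.norm_of_nonneg (pow_nonneg h1 _)]
  exact mul_le_mul_of_nonneg_right (pow_le_pow_left₀ h1 (min_le_right _ _) _) (norm_nonneg _)

theorem Nt_sub {θ : ℝ} (h0 : 0 ≤ θ) (h1 : θ ≤ 1) (m : ℕ) {z w : ℂ} (h : ‖w‖ ≤ ‖z‖) :
    ‖Nt θ m z - Nt θ m w‖ ≤ (1 + 2 * m) * ‖z - w‖ := by
  have e : Nt θ m z - Nt θ m w = ((min ‖z‖ θ ^ (2 * m) : ℝ) : ℂ) * (z - w) +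
      ((min ‖z‖ θ ^ (2 * m) - min ‖w‖ θ ^ (2 * m) : ℝ) : ℂ) * w := by
    unfold Nt
    push_cast
    ring
  have p0 : ∀ u : ℂ, 0 ≤ min ‖u‖ θ := fun u => le_min (norm_nonneg _) h0
  have p1 : ∀ u : ℂ, min ‖u‖ θ ≤ 1 := fun u => (min_le_right _ _).trans h1
  have hzw := norm_nonneg (z - w)
  rw [e, add_mul]
  refine (norm_add_le _ _).trans (add_le_add ?_ ?_)
  · rw [norm_mul, Complex.norm_real, Real.norm_of_nonneg (pow_nonneg (p0 z) _)]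
    exact mul_le_mul_of_nonneg_right (pow_le_one₀ (p0 z) (p1 z)) hzw
  · rcases le_total θ ‖w‖ with hw | hw
    · rw [min_eq_right hw, min_eq_right (hw.trans h), sub_self]
      simp only [ofReal_zero, zero_mul, norm_zero]
      positivity
    · rw [norm_mul, Complex.norm_real, Real.norm_eq_abs]
      have a1 := abs_pow_sub_pow_le (min ‖z‖ θ) (min ‖w‖ θ) (2 * m)
      have a2 : |min ‖z‖ θ - min ‖w‖ θ| ≤ ‖z - w‖ :=
        (abs_min_sub_min_le_max _ _ _ _).trans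
          (max_le (abs_norm_sub_norm_le z w) (by simp))
      have a3 : max |min ‖z‖ θ| |min ‖w‖ θ| ^ (2 * m - 1) ≤ 1 :=
        pow_le_one₀ (le_max_of_le_left (abs_nonneg _))
          (max_le (by rw [abs_of_nonneg (p0 z)]; exact p1 z)
            (by rw [abs_of_nonneg (p0 w)]; exact p1 w))
      have a4 := a1.trans (mul_le_of_le_one_right (by positivity) a3)
      have a5 := a4.trans (mul_le_mul_of_nonneg_right a2 (by positivity))
      have a6 := mul_le_of_le_one_right (abs_nonneg (min ‖z‖ θ ^ (2 * m) - min ‖w‖ θ ^ (2 * m)))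
        (hw.trans h1)
      push_cast at a5
      linarith

theorem Nt_lip {θ : ℝ} (h0 : 0 ≤ θ) (h1 : θ ≤ 1) (m : ℕ) :
    LipschitzWith (1 + 2 * m) (Nt θ m) := by
  refine LipschitzWith.of_dist_le_mul fun z w => ?_
  push_cast
  rcases le_total ‖w‖ ‖z‖ with h | h
  · rw [dist_eq_norm, dist_eq_norm]
    exact Nt_sub h0 h1 m h
  · rw [dist_comm, dist_comm z, dist_eq_norm, dist_eq_norm]
    exact Nt_sub h0 h1 m h

end Vale.Agent.P139Z.ExtP
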