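import Vale.Agent.P139Z.NumP
import Vale.Agent.P139Z.ExtP.Stab

/-! The normalized family of outgoing solutions of the free equation. -/

open Set Filter Topology MeasureTheory Complex
open scoped NNReal ENNReal ComplexConjugate ContDiff

namespace Vale.Agent.P139Z.ExtP

theorem inB_mem {β : ℝ} (h : InB β) : β ∈ Icc (0 : ℝ) 1 :=
  ⟨by linarith [h.1], by linarith [h.2]⟩

theorem inB_compact : IsCompact {β : ℝ | InB β} := isCompact_Icc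

/-- Uniqueness for the free equation on a half-line. -/
theorem free_eqOn {A : ℂ} {a ρ₀ : ℝ} (ha : 0 ≤ a) (hρ₀ : a < ρ₀) {F H : ℝ → ℂ}
    (hF : ContDiffOn ℝ 2 F (Ioi a)) (hH : ContDiffOn ℝ 2 H (Ioi a))
    (eF : ∀ ρ : ℝ, a < ρ → Mop A 6 F ρ = 0) (eH : ∀ ρ : ℝ, a < ρ → Mop A 6 H ρ = 0)
    (h₀ : F ρ₀ = H ρ₀) (h₁ : deriv F ρ₀ = deriv H ρ₀) : EqOn F H (Ioi a) := by
  intro ρ hρ
  have key : ∀ {W : ℝ → ℂ} {x : ℝ}, Mop A 6 W x = 0 →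
      Mop (A - I) 6 W x = (‖W x‖ : ℂ) ^ (2 * 0) * W x := by
    intro W x h
    rw [Mop_shift A, h]
    linear_combination (-W x) * I_mul_I
  exact semi_unique (b := max ρ ρ₀ + 1) ha (hF.mono Ioo_subset_Ioi_self)
    (hH.mono Ioo_subset_Ioi_self) (fun x hx => key (eF x hx.1)) (fun x hx => key (eH x hx.1))
    ⟨hρ₀, by linarith [le_max_right ρ ρ₀]⟩ h₀ h₁ ⟨hρ, by linarith [le_max_left ρ ρ₀]⟩

/-- The modulus of an outgoing solution decreases beyond `11.2`. -/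
theorem norm_anti {β : ℝ} (hβ : InB β) {V : ℝ → ℂ} (hV : Symb 0 V)
    (e : ∀ ρ : ℝ, 0 < ρ → Mop (-I * β) 6 V ρ = 0) : AntitoneOn (fun ρ => ‖V ρ‖) (Ici 11.2) := by
  have hd : ∀ ρ : ℝ, 11.2 ≤ ρ →
      HasDerivAt (fun x => ‖V x‖ ^ 2) (2 * (conj (V ρ) * deriv V ρ).re) ρ := by
    intro ρ hρ
    have h := (hasDerivAt_two ((hV.smooth.contDiffAt (Ioi_mem_nhds (by linarith))).of_le
      two_le)).1.norm_sq
    rwa [Complex.inner, mul_comm (deriv V ρ)] at h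
  have h2 : AntitoneOn (fun x => ‖V x‖ ^ 2) (Ici 11.2) := by
    refine antitoneOn_of_deriv_nonpos (convex_Ici _)
      (fun x hx => (hd x hx).continuousAt.continuousWithinAt)
      (fun x hx => (hd x (interior_subset hx)).differentiableAt.differentiableWithinAt)
      fun x hx => ?_
    rw [(hd x (interior_subset hx)).deriv]
    linarith [nump_mono hβ hV e (interior_subset hx)]
  exact fun x hx y hy hxy => (sq_le_sq₀ (norm_nonneg _) (norm_nonneg _)).1 (h2 hx hy hxy)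

theorem fam {ρ₃ : ℝ} (h₃ : 16 ≤ ρ₃) {C : ℕ → ℝ} {U₀ : ℝ → ℝ → ℂ}
    (hU : ∀ β ∈ Icc (0 : ℝ) 1, ContDiffOn ℝ ∞ (U₀ β) (Ioi (ρ₃ - 1)) ∧
      (∀ ρ : ℝ, ρ₃ - 1 < ρ → Mop (-I * β) 6 (U₀ β) ρ = 0) ∧
      (∀ i : ℕ, ∀ ρ : ℝ, ρ₃ ≤ ρ → ‖iteratedDeriv i (U₀ β) ρ‖ ≤ C i * ρ ^ (-(i : ℝ))) ∧
      Tendsto (fun ρ => ‖U₀ β ρ‖) atTop (𝓝 1))
    (hc : ContinuousOn (fun β => (U₀ β ρ₃, deriv (U₀ β) ρ₃)) (Icc 0 1)) :
    ∃ (U : ℝ → ℝ → ℂ) (c : ℝ) (k : ℝ → ℂ), OutFam U c ∧ ContinuousOn k {β | InB β} ∧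
      ∀ β : ℝ, InB β → ‖k β‖ ≤ 1 ∧ EqOn (U β) (fun ρ => k β * U₀ β ρ) (Ioi (ρ₃ - 1)) := by
  have hρ₃ : 0 < ρ₃ := by linarith
  choose V hV eV h₀ h₁ using fun β : ℝ => exists_free (-I * β) 6 (S := fun _ => 0)
    contDiffOn_const hρ₃ (U₀ β ρ₃) (deriv (U₀ β) ρ₃)
  have hsub : Ioi (ρ₃ - 1) ⊆ Ioi 0 := Ioi_subset_Ioi (by linarith)
  have hE : ∀ β : ℝ, InB β → EqOn (V β) (U₀ β) (Ioi (ρ₃ - 1)) := fun β hβ =>
    free_eqOn (by linarith) (by linarith : ρ₃ - 1 < ρ₃) (((hV β).mono hsub).of_le two_le)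
      ((hU β (inB_mem hβ)).1.of_le two_le) (fun ρ hρ => eV β ρ (hsub hρ))
      (hU β (inB_mem hβ)).2.1 (h₀ β) (h₁ β)
  have hS : ∀ β : ℝ, InB β → Symb 0 (V β) := by
    intro β hβ
    refine Symb.of_eventually (hV β) ρ₃ fun j => ⟨C j, fun ρ hρ _ => ?_⟩
    have h : V β =ᶠ[𝓝 ρ] U₀ β := (hE β hβ).eventuallyEq_of_mem (Ioi_mem_nhds (by linarith))
    rw [h.iteratedDeriv_eq, zero_sub]
    exact (hU β (inB_mem hβ)).2.2.1 j ρ hρ
  have hA : ∀ β : ℝ, InB β → AntitoneOn (fun ρ => ‖V β ρ‖) (Ici 11.2) := fun β hβ =>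
    norm_anti hβ (hS β hβ) (eV β)
  have hL : ∀ β : ℝ, InB β → ∀ ρ : ℝ, 11.2 ≤ ρ → 1 ≤ ‖V β ρ‖ := by
    intro β hβ ρ hρ
    refine le_of_tendsto (hU β (inB_mem hβ)).2.2.2 ?_
    filter_upwards [eventually_ge_atTop ρ, eventually_gt_atTop (ρ₃ - 1)] with x hx hx'
    rw [← hE β hβ hx']
    exact hA β hβ hρ (hρ.trans hx) hx
  have hne : ∀ β : ℝ, InB β → V β 11.2 ≠ 0 := fun β hβ =>
    norm_pos_iff.1 (by linarith [hL β hβ 11.2 le_rfl])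
  have hc' := hc.mono fun β (hβ : InB β) => inB_mem hβ
  obtain ⟨c0, c1⟩ := free_cont (s := {β : ℝ | InB β}) (A := fun β : ℝ => -I * β) (by fun_prop) 6
    (F := V) (fun β _ => (hV β).of_le two_le) (fun β _ => eV β) (T := fun _ => ρ₃)
    continuousOn_const (fun _ _ => hρ₃) (hc'.fst.congr fun β _ => h₀ β)
    (hc'.snd.congr fun β _ => h₁ β)
  have cv : ContinuousOn (fun β => V β 11.2) {β : ℝ | InB β} :=
    c0.comp (f := fun β : ℝ => (β, (11.2 : ℝ))) (by fun_prop)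
      fun β hβ => ⟨hβ, by norm_num⟩
  have ck : ContinuousOn (fun β => (V β 11.2)⁻¹) {β : ℝ | InB β} := cv.inv₀ hne
  have ck' : ContinuousOn (fun p : ℝ × ℝ => (V p.1 11.2)⁻¹) ({β : ℝ | InB β} ×ˢ Ioi 0) :=
    ck.comp continuousOn_fst fun p hp => hp.1
  obtain ⟨M, hM⟩ := inB_compact.exists_bound_of_continuousOn cv
  have hM1 : 1 ≤ M := (hL 0.33473 ⟨le_rfl, by norm_num⟩ 11.2 le_rfl).trans
    (hM 0.33473 ⟨le_rfl, by norm_num⟩)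
  refine ⟨fun β ρ => (V β 11.2)⁻¹ * V β ρ, M⁻¹, fun β => (V β 11.2)⁻¹,
    ⟨by positivity, fun β hβ => (hS β hβ).const_mul _, fun β _ ρ hρ => ?_,
      fun β hβ => inv_mul_cancel₀ (hne β hβ), fun β hβ ρ hρ => ?_, ck'.mul c0, ?_⟩, ck,
    fun β hβ => ⟨?_, fun ρ hρ => ?_⟩⟩
  · rw [Mop_const_mul, eV β ρ hρ, mul_zero]
  · have p1 := hL β hβ 11.2 le_rfl
    rw [norm_mul, norm_inv]
    constructor
    · exact (inv_anti₀ (by linarith) (hM β hβ)).trans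
        (le_mul_of_one_le_right (by positivity) (hL β hβ ρ hρ))
    · rw [inv_mul_le_iff₀ (by linarith), mul_one]
      exact hA β hβ self_mem_Ici hρ hρ
  · exact (ck'.mul c1).congr fun p _ => deriv_const_mul_field _
  · rw [norm_inv]
    exact inv_le_one_of_one_le₀ (hL β hβ 11.2 le_rfl)
  · simp only [hE β hβ hρ]

end Vale.Agent.P139Z.ExtP
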