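import Vale.Agent.P139Z.ExtP.Stab

/-! Continuation of one exterior profile from a large radius down to `11.2`. -/

open Set Filter Topology MeasureTheory Complex
open scoped NNReal ENNReal ComplexConjugate ContDiff

namespace Vale.Agent.P139Z.ExtP

theorem close1 {t τ M η : ℝ} {g u : ℂ} (h1 : 1 ≤ t) (h2 : t ≤ 1 + τ) (hu : ‖u‖ ≤ M)
    (h : ‖(t : ℂ) * g - u‖ ≤ η) : ‖g - u‖ ≤ η + τ * M := by
  have e : (t : ℂ) * (g - u) = (t * g - u) - ((t - 1 : ℝ) : ℂ) * u := by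
    push_cast
    ring
  have a1 := norm_sub_le ((t : ℂ) * g - u) (((t - 1 : ℝ) : ℂ) * u)
  rw [← e, norm_mul, norm_mul, Complex.norm_real, Complex.norm_real,
    Real.norm_of_nonneg (by linarith), Real.norm_of_nonneg (by linarith)] at a1
  have a2 := mul_le_mul (by linarith : t - 1 ≤ τ) hu (norm_nonneg _) (by linarith)
  nlinarith [norm_nonneg (g - u)]

theorem close2 {t τ M ε : ℝ} {g u : ℂ} (h1 : 1 ≤ t) (h2 : t ≤ 1 + τ) (hτ : τ ≤ 1) (hu : ‖u‖ ≤ M)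
    (h : ‖g - u‖ ≤ ε) : ‖(t : ℂ) * g - u‖ ≤ 2 * ε + τ * M := by
  have e : (t : ℂ) * g - u = (t : ℂ) * (g - u) + ((t - 1 : ℝ) : ℂ) * u := by
    push_cast
    ring
  have a1 := norm_add_le ((t : ℂ) * (g - u)) (((t - 1 : ℝ) : ℂ) * u)
  rw [← e, norm_mul, norm_mul, Complex.norm_real, Complex.norm_real,
    Real.norm_of_nonneg (by linarith), Real.norm_of_nonneg (by linarith)] at a1
  have a2 := mul_le_mul (by linarith : t - 1 ≤ τ) hu (norm_nonneg _) (by linarith)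
  have a3 := mul_le_mul (by linarith : t ≤ 2) h (norm_nonneg _) (by linarith)
  linarith

theorem norm_inv_two_mul (m : ℕ) : ‖(1 / (2 * (m : ℂ)) : ℂ)‖ = 1 / (2 * (m : ℝ)) := by
  simp

theorem norm_Lam {m : ℕ} {β : ℝ} (hm : 1 / (2 * (m : ℝ)) ≤ 1) (hβ : InB β) : ‖Lam m β‖ ≤ 6 := by
  have h := norm_sub_le (1 / (2 * (m : ℂ))) (I * β)
  rw [norm_inv_two_mul, norm_mul, norm_I, one_mul, Complex.norm_real,
    Real.norm_of_nonneg (by linarith [hβ.1])] at h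
  exact h.trans (by linarith [hβ.2])

/-- A solution of the truncated equation stays close to a free solution. -/
theorem inner_close (b : ℝ) : ∃ C : ℝ, 0 < C ∧ ∀ (θ τ M β ρ₀ : ℝ) (m : ℕ) (F W : ℝ → ℂ),
    0 ≤ θ → τ ≤ 1 → InB β → θ ^ (2 * m) ≤ τ → 1 / (2 * (m : ℝ)) ≤ τ →
    ContDiffOn ℝ 2 F (Ioi 0) → ContDiffOn ℝ 2 W (Ioi 0) →
    (∀ ρ : ℝ, 0 < ρ → Mop (Lam m β) 6 F ρ = Nt θ m (F ρ)) →
    (∀ ρ : ℝ, 0 < ρ → Mop (-I * β) 6 W ρ = 0) → (∀ ρ ∈ Icc 11.2 b, ‖W ρ‖ ≤ M) →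
    ρ₀ ∈ Icc 11.2 b → ∀ ρ ∈ Icc 11.2 b, ‖F ρ - W ρ‖ + ‖deriv F ρ - deriv W ρ‖ ≤
      C * (‖F ρ₀ - W ρ₀‖ + ‖deriv F ρ₀ - deriv W ρ₀‖ + 2 * (τ * M)) := by
  obtain ⟨C, hC, h⟩ := stab1 (by norm_num : (0 : ℝ) < 11.2) b (le_refl 6)
  refine ⟨C, hC, fun θ τ M β ρ₀ m F W h0 hτ hβ t1 t2 hF hW eF eW hM h₀ ρ hρ => ?_⟩
  have pos : ∀ x ∈ Icc 11.2 b, (0 : ℝ) < x := fun x hx => by linarith [hx.1]
  have dF : ∀ x ∈ Icc 11.2 b, ContDiffAt ℝ 2 F x := fun x hx =>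
    hF.contDiffAt (Ioi_mem_nhds (pos x hx))
  have dW : ∀ x ∈ Icc 11.2 b, ContDiffAt ℝ 2 W x := fun x hx =>
    hW.contDiffAt (Ioi_mem_nhds (pos x hx))
  have hτ0 : 0 ≤ τ := (pow_nonneg h0 _).trans t1
  have hM0 : 0 ≤ M := (norm_nonneg _).trans (hM ρ hρ)
  have h1 := h (Lam m β) (fun x => F x - W x) (2 * (τ * M)) (norm_Lam (t2.trans hτ) hβ)
    (fun x hx => (dF x hx).sub (dW x hx)) (by positivity) (fun x hx => ?_) ρ₀ h₀ ρ hρ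
  · rwa [deriv_sub_two (dF ρ hρ) (dW ρ hρ), deriv_sub_two (dF ρ₀ h₀) (dW ρ₀ h₀)] at h1
  · have e : Lam m β - -I * β = 1 / (2 * (m : ℂ)) := by
      unfold Lam
      ring
    rw [Mop_sub _ _ (dF x hx) (dW x hx), Mop_shift (-I * β) (Lam m β) 6 W, eF x (pos x hx),
      eW x (pos x hx), zero_add, e]
    have a1 := norm_sub_le (Nt θ m (F x)) (I * (1 / (2 * (m : ℂ))) * W x)
    rw [norm_mul, norm_mul, norm_I, one_mul, norm_inv_two_mul] at a1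
    have a2 := (norm_Nt h0 m (F x)).trans (mul_le_mul_of_nonneg_right t1 (norm_nonneg _))
    have a3 := mul_le_mul t2 (hM x hx) (norm_nonneg _) hτ0
    have a4 := norm_add_le (F x - W x) (W x)
    rw [sub_add_cancel] at a4
    have a5 := mul_le_mul_of_nonneg_left (a4.trans (add_le_add le_rfl (hM x hx))) hτ0
    have a6 := mul_le_mul_of_nonneg_right hτ (norm_nonneg (F x - W x))
    linarith [norm_nonneg (F x - W x)]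

/-- Two functions glued at `ρ₃`. -/
noncomputable def gl (ρ₃ : ℝ) (F G : ℝ → ℂ) (ρ : ℝ) : ℂ := if ρ ≤ ρ₃ then F ρ else G ρ

theorem gl_left {ρ₃ ρ : ℝ} (F G : ℝ → ℂ) (h : ρ < ρ₃) : gl ρ₃ F G =ᶠ[𝓝 ρ] F := by
  filter_upwards [Iio_mem_nhds h] with x hx
  exact if_pos (le_of_lt hx)

theorem glue {A : ℂ} {m : ℕ} {θ ρ₃ : ℝ} (h₃ : 16 ≤ ρ₃) {F G : ℝ → ℂ}
    (hF : ContDiffOn ℝ 2 F (Ioi 0)) (eF : ∀ ρ : ℝ, 0 < ρ → Mop A 6 F ρ = Nt θ m (F ρ))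
    (hb : ∀ ρ ∈ Icc 11.2 (ρ₃ + 1), ‖F ρ‖ < θ) (hG : ContDiffOn ℝ ∞ G (Ioi (ρ₃ - 1)))
    (eG : ∀ ρ : ℝ, ρ₃ - 1 < ρ → Mop A 6 G ρ = (‖G ρ‖ : ℂ) ^ (2 * m) * G ρ)
    (h₀ : F ρ₃ = G ρ₃) (h₁ : deriv F ρ₃ = deriv G ρ₃) :
    (∀ ρ : ℝ, ρ₃ - 1 < ρ → gl ρ₃ F G =ᶠ[𝓝 ρ] G) ∧
      ∃ δ : ℝ, 0 < δ ∧ ContDiffOn ℝ ∞ (gl ρ₃ F G) (Ioi (11.2 - δ)) ∧ ∀ ρ : ℝ, 11.2 - δ < ρ →
        Mop A 6 (gl ρ₃ F G) ρ = (‖gl ρ₃ F G ρ‖ : ℂ) ^ (2 * m) * gl ρ₃ F G ρ := by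
  have hc : ContinuousAt (fun ρ => ‖F ρ‖) 11.2 :=
    (hF.contDiffAt (Ioi_mem_nhds (by norm_num))).continuousAt.norm
  obtain ⟨δ₀, hδ₀, hn⟩ := Metric.eventually_nhds_iff.1
    (hc.eventually_lt continuousAt_const (hb 11.2 ⟨le_rfl, by linarith⟩))
  have hδ : 0 < min δ₀ 1 := lt_min hδ₀ one_pos
  have d1 := min_le_left δ₀ 1
  have d2 := min_le_right δ₀ 1
  have eF' : ∀ ρ ∈ Ioo (11.2 - min δ₀ 1) (ρ₃ + 1),
      Mop A 6 F ρ = (‖F ρ‖ : ℂ) ^ (2 * m) * F ρ := by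
    intro ρ hρ
    rw [eF ρ (by linarith [hρ.1])]
    refine Nt_eq m (le_of_lt ?_)
    rcases le_total 11.2 ρ with h | h
    · exact hb ρ ⟨h, hρ.2.le⟩
    · refine hn ?_
      rw [Real.dist_eq, abs_lt]
      constructor <;> linarith [hρ.1]
  have hE : EqOn F G (Ioo (ρ₃ - 1) (ρ₃ + 1)) :=
    semi_unique (by linarith) (hF.mono fun x hx => (by linarith [hx.1] : (0 : ℝ) < x))
      ((hG.of_le two_le).mono Ioo_subset_Ioi_self)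
      (fun x hx => eF' x ⟨by linarith [hx.1], hx.2⟩) (fun x hx => eG x hx.1)
      ⟨by linarith, by linarith⟩ h₀ h₁
  have hR : ∀ ρ : ℝ, ρ₃ - 1 < ρ → gl ρ₃ F G =ᶠ[𝓝 ρ] G := by
    intro ρ hρ
    filter_upwards [Ioi_mem_nhds hρ] with x hx
    unfold gl
    split_ifs with h
    · exact hE ⟨hx, by linarith⟩
    · rfl
  have hs : ContDiffOn ℝ ∞ F (Ioo (11.2 - min δ₀ 1) (ρ₃ + 1)) :=
    smooth_of_ode isOpen_Ioo (fun x hx => (by linarith [hx.1] : (0 : ℝ) < x))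
      (hF.mono fun x hx => (by linarith [hx.1] : (0 : ℝ) < x)) eF'
  refine ⟨hR, min δ₀ 1, hδ, fun ρ hρ => ?_, fun ρ hρ => ?_⟩
  · rcases lt_or_ge ρ ρ₃ with h | h
    · exact ((hs.contDiffAt (Ioo_mem_nhds hρ (by linarith))).congr_of_eventuallyEq
        (gl_left F G h)).contDiffWithinAt
    · exact ((hG.contDiffAt (Ioi_mem_nhds (by linarith))).congr_of_eventuallyEq
        (hR ρ (by linarith))).contDiffWithinAt
  · rcases lt_or_ge ρ ρ₃ with h | h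
    · rw [Mop_congr _ _ (gl_left F G h), (gl_left F G h).eq_of_nhds]
      exact eF' ρ ⟨hρ, by linarith⟩
    · rw [Mop_congr _ _ (hR ρ (by linarith)), (hR ρ (by linarith)).eq_of_nhds]
      exact eG ρ (by linarith)

theorem exists_m₀ {θ τ b : ℝ} (h0 : 0 ≤ θ) (h1 : θ < 1) (hτ : 0 < τ) (hb : 0 < b) :
    ∃ m₀ : ℕ, ∀ m : ℕ, m₀ ≤ m →
      θ ^ (2 * m) ≤ τ ∧ 1 / (2 * (m : ℝ)) ≤ τ ∧ b ^ (1 / (2 * (m : ℝ))) ≤ 1 + τ := by
  have t0 : Tendsto (fun m : ℕ => 2 * m) atTop atTop := tendsto_id.const_mul_atTop' two_pos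
  have t1 := (tendsto_pow_atTop_nhds_zero_of_lt_one h0 h1).comp t0
  have t2 : Tendsto (fun m : ℕ => 1 / (2 * (m : ℝ))) atTop (𝓝 0) :=
    tendsto_const_nhds.div_atTop (tendsto_natCast_atTop_atTop.const_mul_atTop two_pos)
  have t3 := (Real.continuousAt_const_rpow (a := b) (b := 0) hb.ne').tendsto.comp t2
  rw [Real.rpow_zero] at t3
  exact eventually_atTop.1 ((t1.eventually_le_const hτ).and ((t2.eventually_le_const hτ).and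
    (t3.eventually_le_const (by linarith))))

end Vale.Agent.P139Z.ExtP
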