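import Vale.Agent.P139Z.Borel
import Vale.Agent.P139Z.ExtP.Fam
import Vale.Agent.P139Z.ExtP.One

/-! Exterior profiles: assembly. -/

open Set Filter Topology MeasureTheory Complex
open scoped NNReal ENNReal ComplexConjugate ContDiff

namespace Vale.Agent.P139Z.ExtP

theorem fam_bound {U : ℝ → ℝ → ℂ} {c : ℝ} (h : OutFam U c) (b : ℝ) :
    ∃ M : ℝ, 1 ≤ M ∧ ∀ β : ℝ, InB β → ∀ ρ ∈ Icc 11.2 b, ‖U β ρ‖ ≤ M ∧ ‖deriv (U β) ρ‖ ≤ M := by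
  have hK := inB_compact.prod (isCompact_Icc (a := (11.2 : ℝ)) (b := b))
  obtain ⟨M, hM⟩ := hK.exists_bound_of_continuousOn
    (h.cont'.mono (prod_mono_right fun x hx => (by linarith [hx.1] : (0 : ℝ) < x)))
  exact ⟨max M 1, le_max_right _ _, fun β hβ ρ hρ =>
    ⟨(h.bd β hβ ρ hρ.1).2.trans (le_max_right _ _), (hM (β, ρ) ⟨hβ, hρ⟩).trans (le_max_left _ _)⟩⟩

theorem main {x₁ : ℝ} (hx₀ : 1 / 2 ≤ x₁) (hx : x₁ < 1) :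
    ∃ (U : ℝ → ℝ → ℂ) (c ρ₃ : ℝ) (C : ℕ → ℝ), OutFam U c ∧
      ∀ η : ℝ, 0 < η → ∃ m₀ : ℕ, ∀ m : ℕ, m₀ ≤ m → ∃ E : ℝ → ℝ → ℝ → ℂ,
        ContinuousOn (fun p : ℝ × ℝ => (E p.1 p.2 11.2, deriv (E p.1 p.2) 11.2))
          ({β | InB β} ×ˢ Icc (1 / 2) x₁) ∧
        ∀ β x : ℝ, InB β → x ∈ Icc (1 / 2) x₁ → IsExt m β (E β x) (U β) x η ρ₃ C := by
  obtain ⟨ρ₃, h₃, C, U₀, hU₀, hc₀, hB⟩ := borel (δ := 1 - x₁) (by linarith)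
  obtain ⟨U, c, k, hU, ck, hk⟩ := fam h₃ hU₀ hc₀
  obtain ⟨M, hM1, hM⟩ := fam_bound hU (ρ₃ + 1)
  obtain ⟨C₁, hC₁, hin⟩ := inner_close (ρ₃ + 1)
  refine ⟨U, c, ρ₃, C, hU, fun η hη => ?_⟩
  obtain ⟨e, he0, he1, he2⟩ : ∃ e : ℝ, 0 < e ∧ e * (12 * C₁ + 1) ≤ η ∧
      e * (12 * C₁ + 1) ≤ (1 - x₁) / 2 := by
    refine ⟨min η ((1 - x₁) / 2) / (12 * C₁ + 1), div_pos (lt_min hη (by linarith)) (by positivity),
      ?_, ?_⟩ <;> rw [div_mul_cancel₀ _ (by positivity)]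
    exacts [min_le_left _ _, min_le_right _ _]
  have heC : 0 < e * C₁ := mul_pos he0 hC₁
  have hτM : e / M * M = e := div_mul_cancel₀ _ (by linarith)
  have hτ1 : e / M ≤ 1 := (div_le_one (by linarith)).2 (by linarith)
  have hθ0 : 0 ≤ (1 + x₁) / 2 := by linarith
  obtain ⟨m₁, hm₁⟩ := hB e he0
  obtain ⟨m₂, hm₂⟩ := exists_m₀ hθ0 (by linarith) (div_pos he0 (by linarith : 0 < M))
    (by linarith : 0 < ρ₃ + 1)
  refine ⟨max m₁ m₂, fun m hm => ?_⟩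
  obtain ⟨G, cG, hG⟩ := hm₁ m ((le_max_left _ _).trans hm)
  obtain ⟨t1, t2, t3⟩ := hm₂ m ((le_max_right _ _).trans hm)
  have hN := Nt_lip hθ0 (by linarith) m
  choose F hF eF h₀ h₁ using fun β x : ℝ => exists_semi (Lam m β) 6 hN (by linarith : 0 < ρ₃)
    (G β (x * k β) ρ₃) (deriv (G β (x * k β)) ρ₃)
  have hs : 0 ≤ 1 / (2 * (m : ℝ)) := by positivity
  have ht : ∀ ρ ∈ Icc 11.2 (ρ₃ + 1), 1 ≤ ρ ^ (1 / (2 * (m : ℝ))) ∧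
      ρ ^ (1 / (2 * (m : ℝ))) ≤ 1 + e / M := fun ρ hρ =>
    ⟨Real.one_le_rpow (by linarith [hρ.1]) hs,
      (Real.rpow_le_rpow (by linarith [hρ.1]) hρ.2 hs).trans t3⟩
  have h₃' : ρ₃ ∈ Icc 11.2 (ρ₃ + 1) := ⟨by linarith, by linarith⟩
  have hxk : ∀ β x : ℝ, InB β → x ∈ Icc (1 / 2) x₁ → ‖x * k β‖ ≤ 1 - (1 - x₁) := by
    intro β x hβ hx
    rw [norm_mul, Complex.norm_real, Real.norm_of_nonneg (by linarith [hx.1])]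
    nlinarith [(hk β hβ).1, hx.1, hx.2, norm_nonneg (k β)]
  have hxU : ∀ (x r : ℝ) (z : ℂ), x ∈ Icc (1 / 2) x₁ → ‖z‖ ≤ r → ‖x * z‖ ≤ x₁ * r := by
    intro x r z hx hz
    rw [norm_mul, Complex.norm_real, Real.norm_of_nonneg (by linarith [hx.1])]
    exact mul_le_mul hx.2 hz (norm_nonneg _) (by linarith)
  have hxM : ∀ β x : ℝ, InB β → x ∈ Icc (1 / 2) x₁ → ∀ ρ ∈ Icc 11.2 (ρ₃ + 1),
      ‖x * U β ρ‖ ≤ M ∧ ‖x * deriv (U β) ρ‖ ≤ M := fun β x hβ hx' ρ hρ =>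
    ⟨(hxU x M _ hx' (hM β hβ ρ hρ).1).trans (by nlinarith),
      (hxU x M _ hx' (hM β hβ ρ hρ).2).trans (by nlinarith)⟩
  have hfar : ∀ β x : ℝ, InB β → x ∈ Icc (1 / 2) x₁ → ∀ ρ : ℝ, ρ₃ ≤ ρ →
      ‖((ρ ^ (1 / (2 * (m : ℝ))) : ℝ) : ℂ) * G β (x * k β) ρ - x * U β ρ‖ ≤ e ∧
      ‖((ρ ^ (1 / (2 * (m : ℝ))) : ℝ) : ℂ) * deriv (G β (x * k β)) ρ - x * deriv (U β) ρ‖ ≤ e := by
    intro β x hβ hx' ρ hρ
    have h : U β =ᶠ[𝓝 ρ] fun y => k β * U₀ β y :=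
      (hk β hβ).2.eventuallyEq_of_mem (Ioi_mem_nhds (by linarith))
    rw [h.eq_of_nhds, h.deriv_eq, deriv_const_mul_field, ← mul_assoc, ← mul_assoc]
    exact (hG β (inB_mem hβ) _ (hxk β x hβ hx')).2.2.2 ρ hρ
  have hnear : ∀ β x : ℝ, InB β → x ∈ Icc (1 / 2) x₁ → ∀ ρ ∈ Icc 11.2 (ρ₃ + 1),
      ‖F β x ρ - x * U β ρ‖ ≤ 6 * (e * C₁) ∧
        ‖deriv (F β x) ρ - x * deriv (U β) ρ‖ ≤ 6 * (e * C₁) := by
    intro β x hβ hx' ρ hρ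
    have h := hin _ (e / M) M β ρ₃ m (F β x) (fun y => x * U β y) hθ0 hτ1 hβ t1 t2 (hF β x)
      (((hU.symb β hβ).const_mul x).smooth.of_le two_le) (eF β x)
      (fun y hy => by rw [Mop_const_mul, hU.ode β hβ y hy, mul_zero])
      (fun y hy => (hxM β x hβ hx' y hy).1) h₃' ρ hρ
    rw [deriv_const_mul_field, deriv_const_mul_field, h₀, h₁, hτM] at h
    have a1 := close1 (ht ρ₃ h₃').1 (ht ρ₃ h₃').2 (hxM β x hβ hx' ρ₃ h₃').1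
      (hfar β x hβ hx' ρ₃ le_rfl).1
    have a2 := close1 (ht ρ₃ h₃').1 (ht ρ₃ h₃').2 (hxM β x hβ hx' ρ₃ h₃').2
      (hfar β x hβ hx' ρ₃ le_rfl).2
    rw [hτM] at a1 a2
    have a3 := h.trans (mul_le_mul_of_nonneg_left (add_le_add (add_le_add a1 a2) le_rfl) hC₁.le)
    constructor
    · linarith [norm_nonneg (deriv (F β x) ρ - x * deriv (U β) ρ)]
    · linarith [norm_nonneg (F β x ρ - x * U β ρ)]
  have hlt : ∀ β x : ℝ, InB β → x ∈ Icc (1 / 2) x₁ → ∀ ρ ∈ Icc 11.2 (ρ₃ + 1),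
      ‖F β x ρ‖ < (1 + x₁) / 2 := by
    intro β x hβ hx' ρ hρ
    have a1 := norm_add_le (F β x ρ - x * U β ρ) (x * U β ρ)
    rw [sub_add_cancel] at a1
    linarith [(hnear β x hβ hx' ρ hρ).1, hxU x 1 _ hx' (hU.bd β hβ ρ hρ.1).2]
  refine ⟨fun β x => gl ρ₃ (F β x) (G β (x * k β)), ?_, fun β x hβ hx' => ?_⟩
  · have cd : ContinuousOn (fun p : ℝ × ℝ => (F p.1 p.2 ρ₃, deriv (F p.1 p.2) ρ₃))
        ({β | InB β} ×ˢ Icc (1 / 2) x₁) := by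
      refine (cG.comp (f := fun p : ℝ × ℝ => (p.1, (p.2 : ℂ) * k p.1))
        (continuousOn_fst.prodMk ((continuous_ofReal.comp continuous_snd).continuousOn.mul
          (ck.comp continuousOn_fst fun p hp => hp.1))) fun p hp =>
        ⟨inB_mem hp.1, mem_closedBall_zero_iff.2 (hxk _ _ hp.1 hp.2)⟩).congr fun p _ => ?_
      exact Prod.ext (h₀ _ _) (h₁ _ _)
    refine (semi_cont (by norm_num) h₃' hN (A := fun p : ℝ × ℝ => Lam m p.1)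
      (F := fun p : ℝ × ℝ => F p.1 p.2) (by unfold Lam; fun_prop)
      (fun p hp => norm_Lam (t2.trans hτ1) hp.1) (fun p _ => hF _ _) (fun p _ => eF _ _)
      (fun p hp ρ hρ => by linarith [hlt _ _ hp.1 hp.2 ρ hρ]) cd).congr fun p _ => ?_
    have h := gl_left (F p.1 p.2) (G p.1 (p.2 * k p.1)) (by linarith : 11.2 < ρ₃)
    exact Prod.ext h.eq_of_nhds h.deriv_eq
  · obtain ⟨g1, g2, g3, -⟩ := hG β (inB_mem hβ) _ (hxk β x hβ hx')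
    obtain ⟨hR, hsm⟩ := glue h₃ (hF β x) (eF β x) (hlt β x hβ hx') g1 g2 (h₀ β x) (h₁ β x)
    beta_reduce
    refine ⟨hsm, fun ρ hρ => ?_, fun i ρ hρ => ?_⟩
    · rcases lt_or_ge ρ ρ₃ with h | h
      · have hρ' : ρ ∈ Icc 11.2 (ρ₃ + 1) := ⟨hρ, by linarith⟩
        rw [(gl_left _ _ h).eq_of_nhds, (gl_left _ _ h).deriv_eq]
        have a1 := close2 (ht ρ hρ').1 (ht ρ hρ').2 hτ1 (hxM β x hβ hx' ρ hρ').1
          (hnear β x hβ hx' ρ hρ').1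
        have a2 := close2 (ht ρ hρ').1 (ht ρ hρ').2 hτ1 (hxM β x hβ hx' ρ hρ').2
          (hnear β x hβ hx' ρ hρ').2
        rw [hτM] at a1 a2
        constructor <;> linarith
      · rw [(hR ρ (by linarith)).eq_of_nhds, (hR ρ (by linarith)).deriv_eq]
        obtain ⟨a1, a2⟩ := hfar β x hβ hx' ρ h
        constructor <;> linarith
    · rw [(hR ρ (by linarith)).iteratedDeriv_eq]
      exact g3 i ρ hρ

end Vale.Agent.P139Z.ExtP
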